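import Vale.Agent.P280.H155.Vec
import Vale.Agent.P280.H495.U2
import Vale.Agent.P280.H490.CurveU
import Vale.Agent.P280.H79.Move
import Vale.Agent.P280.N.D01
import Vale.Agent.P280.N.F02

/-! P280, stage 2, block B3: the functional `tau` and the induction. -/

open DirectSum Vale.Agent.P280.T Vale.Agent.P280.H127 Vale.Agent.P280.N Vale.Agent.P280.N.H989
  Vale.Agent.P280.N2

namespace Vale.Agent.P280.H539

variable {r : ℕ} {R : Type} [CommRing R] [IsDomain R] [Algebra ℂ R]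
  {𝒜 : ℕ × (Fin r → ℤ) → Submodule ℂ R} [GradedAlgebra 𝒜]
variable {N : ℤ} {f : Fin (3 + 1) → Fin r → ℤ}
  {β : Fin (3 + 1) → Fin (3 + 1) → ((Fin r → ℤ) →+ ℤ)} {E F : Fin (3 + 1) → Fin (3 + 1) → VF R}

/-- The functional `τ = β₀₃ + β₁₃ + β₂₃`. -/
def tau (β : Fin (3 + 1) → Fin (3 + 1) → ((Fin r → ℤ) →+ ℤ)) : (Fin r → ℤ) →+ ℤ :=
  β 0 3 + β 1 3 + β 2 3

omit [GradedAlgebra 𝒜] in
theorem tau_f (hA : AC 𝒜 N 3 f β E F) (k : Fin (3 + 1)) :
    tau β (f k) = if k = 3 then -3 * N else N := by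
  have e : ∀ i : Fin (3 + 1), i ≠ 3 →
      β i 3 (f k) = (if k = i then N else 0) - (if k = 3 then N else 0) :=
    fun i hi => hA.be i 3 k hi
  rw [tau, AddMonoidHom.add_apply, AddMonoidHom.add_apply, e 0 (by decide), e 1 (by decide),
    e 2 (by decide)]
  fin_cases k
  · simp [Fin.ext_iff]
  · simp [Fin.ext_iff]
  · simp [Fin.ext_iff]
  · simp [Fin.ext_iff]
    ring

omit [GradedAlgebra 𝒜] in
theorem tau_3 (hA : AC 𝒜 N 3 f β E F) : tau β (f 3) = -3 * N := by
  rw [tau_f hA, if_pos rfl]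

omit [GradedAlgebra 𝒜] in
theorem tau_i (hA : AC 𝒜 N 3 f β E F) {i : Fin (3 + 1)} (hi : i ≠ 3) : tau β (f i) = N := by
  rw [tau_f hA, if_neg hi]

omit [GradedAlgebra 𝒜] in
/-- The values of `τ` on the weights. -/
theorem cls (hA : AC 𝒜 N 3 f β E F) {μ : Fin r → ℤ} (hμ : Wt 𝒜 μ) :
    tau β μ = 0 ∨ tau β μ = 2 * N ∨ tau β μ = -2 * N ∨ tau β μ = -4 * N ∨
    (tau β μ = N ∧ ∃ i, i ≠ 3 ∧ μ = f i) ∨ (tau β μ = -N ∧ ∃ i, i ≠ 3 ∧ μ = -f i) ∨
    (tau β μ = 3 * N ∧ μ = -f 3) ∨ (tau β μ = -3 * N ∧ μ = f 3) ∨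
    (tau β μ = 4 * N ∧ ∃ i, i ≠ 3 ∧ μ = f i - f 3) := by
  rcases hA.S μ hμ with h | ⟨i, j, hij, rfl⟩ | ⟨i, rfl | rfl⟩ | ⟨-, i, j, hij, rfl⟩
  · left
    rw [tau, AddMonoidHom.add_apply, AddMonoidHom.add_apply, h 0 3 (by decide),
      h 1 3 (by decide), h 2 3 (by decide)]
    rfl
  · by_cases h1 : i = 3
    · subst h1
      have h2 : j ≠ 3 := hij.symm
      right; right; right; left
      rw [map_sub, tau_3 hA, tau_i hA h2]
      ring
    · by_cases h2 : j = 3
      · subst h2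
        right; right; right; right; right; right; right; right
        exact ⟨by rw [map_sub, tau_3 hA, tau_i hA h1]; ring, i, h1, rfl⟩
      · left
        rw [map_sub, tau_i hA h1, tau_i hA h2, sub_self]
  · by_cases h1 : i = 3
    · subst h1
      right; right; right; right; right; right; right; left
      exact ⟨tau_3 hA, rfl⟩
    · right; right; right; right; left
      exact ⟨tau_i hA h1, i, h1, rfl⟩
  · by_cases h1 : i = 3
    · subst h1
      right; right; right; right; right; right; left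
      exact ⟨by rw [map_neg, tau_3 hA]; ring, rfl⟩
    · right; right; right; right; right; left
      exact ⟨by rw [map_neg, tau_i hA h1], i, h1, rfl⟩
  · by_cases h1 : i = 3
    · subst h1
      have h2 : j ≠ 3 := hij.symm
      right; right; left
      rw [map_add, tau_3 hA, tau_i hA h2]
      ring
    · by_cases h2 : j = 3
      · subst h2
        right; right; left
        rw [map_add, tau_3 hA, tau_i hA h1]
        ring
      · right; left
        rw [map_add, tau_i hA h1, tau_i hA h2]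
        ring

/-- The functional `c`. -/
theorem exists_c (H : Hyp 𝒜) (hA : AC 𝒜 N 3 f β E F) : ∃ c : (Fin r → ℤ) →+ ℤ,
    (∀ μ, Wt 𝒜 μ → c μ ≠ 0) ∧ (∀ μ, Wt 𝒜 μ → 0 < tau β μ → 0 < c μ) ∧
    (∀ μ, Wt 𝒜 μ → tau β μ < 0 → c μ < 0) ∧
    (∀ μ, Wt 𝒜 μ → tau β μ = 0 → 0 < β 0 2 μ → 0 < c μ) := by
  have hN := hA.N0
  have hfin := D01.wt_finite H
  obtain ⟨g, hg⟩ := H587.exists_generic (hfin.insert 0)
  have hg0 : ∀ μ, Wt 𝒜 μ → g μ ≠ 0 := by
    intro μ hμ h0
    have h1 := hg (Set.mem_insert_of_mem _ hμ) (Set.mem_insert _ _) (by rw [h0, map_zero])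
    obtain ⟨y, hy⟩ := hμ
    rw [h1] at hy
    exact H.iso y.q y.ν y.nv y.fix hy
  obtain ⟨B, hB0, hB⟩ := H587.exists_bound (S := {χ | Wt 𝒜 χ}) hfin g
  have hgB : ∀ μ, Wt 𝒜 μ → |g μ| ≤ B := by
    intro μ hμ
    have h1 := hB μ hμ (-μ) (wt_neg H hμ)
    rw [sub_neg_eq_add, map_add, ← two_mul, abs_mul, abs_two] at h1
    have h2 := abs_nonneg (g μ)
    linarith
  have hκ : ∀ μ, Wt 𝒜 μ → |β 0 2 μ| ≤ 2 * N := by
    intro μ hμ
    have hr := hA.root 0 2 (by decide)
    by_cases h1 : μ = f 0 - f 2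
    · rw [h1, hr.two, abs_of_pos (by linarith)]
    by_cases h2 : μ = -(f 0 - f 2)
    · rw [h2, map_neg, hr.two, abs_neg, abs_of_pos (by linarith)]
    have h3 := hr.bd μ hμ h1 h2
    linarith
  set K2 : ℤ := B + 1 with hK2
  set K1 : ℤ := 2 * N * K2 + B + 1 with hK1
  let c : (Fin r → ℤ) →+ ℤ := K1 • tau β + K2 • β 0 2 + g
  have hc : ∀ μ, c μ = K1 * tau β μ + K2 * β 0 2 μ + g μ := fun μ => by
    change K1 • tau β μ + K2 • β 0 2 μ + g μ = _
    rw [smul_eq_mul, smul_eq_mul]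
  have hK2p : 0 < K2 := by omega
  have hest : ∀ μ, Wt 𝒜 μ → |K2 * β 0 2 μ + g μ| < K1 := by
    intro μ hμ
    have h1 := hgB μ hμ
    have h2 := hκ μ hμ
    have h3 : |K2 * β 0 2 μ| ≤ K2 * (2 * N) := by
      rw [abs_mul, abs_of_pos hK2p]
      exact mul_le_mul_of_nonneg_left h2 hK2p.le
    have h4 := abs_add_le (K2 * β 0 2 μ) (g μ)
    nlinarith
  have hpos : ∀ μ, Wt 𝒜 μ → 0 < tau β μ → 0 < c μ := by
    intro μ hμ h
    have h1 := (abs_lt.1 (hest μ hμ)).1
    rw [hc]
    have h2 : K1 * 1 ≤ K1 * tau β μ := by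
      apply mul_le_mul_of_nonneg_left h
      have := abs_nonneg (K2 * β 0 2 μ + g μ)
      have := hest μ hμ
      linarith
    linarith
  refine ⟨c, ?_, hpos, ?_, ?_⟩
  · intro μ hμ
    rcases lt_trichotomy (tau β μ) 0 with h | h | h
    · have h1 := hpos (-μ) (wt_neg H hμ) (by rw [map_neg]; linarith)
      rw [map_neg] at h1
      intro h2
      rw [h2] at h1
      simp at h1
    · rw [hc, h, mul_zero, zero_add]
      have h1 := hgB μ hμ
      have h2 := hg0 μ hμ
      intro h3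
      have h4 : |K2 * β 0 2 μ| ≤ B := by
        have h5 : K2 * β 0 2 μ = -g μ := by linarith
        rw [h5, abs_neg]
        exact h1
      rw [abs_mul, abs_of_pos hK2p] at h4
      have h5 : |β 0 2 μ| = 0 := by
        have h6 := abs_nonneg (β 0 2 μ)
        by_contra h7
        have h8 : 1 ≤ |β 0 2 μ| := by omega
        nlinarith
      rw [abs_eq_zero] at h5
      rw [h5, mul_zero, zero_add] at h3
      exact h2 h3
    · exact (hpos μ hμ h).ne'
  · intro μ hμ h
    have h1 := hpos (-μ) (wt_neg H hμ) (by rw [map_neg]; linarith)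
    rw [map_neg] at h1
    linarith
  · intro μ hμ h h'
    rw [hc, h, mul_zero, zero_add]
    have h1 := (abs_le.1 (hgB μ hμ)).1
    have h2 : K2 * 1 ≤ K2 * β 0 2 μ := mul_le_mul_of_nonneg_left h' hK2p.le
    linarith

omit [GradedAlgebra 𝒜] in
theorem tau_le (hA : AC 𝒜 N 3 f β E F) {μ : Fin r → ℤ} (hμ : Wt 𝒜 μ) : tau β μ ≤ 4 * N := by
  have hN := hA.N0
  rcases cls hA hμ with h | h | h | h | ⟨h, -⟩ | ⟨h, -⟩ | ⟨h, -⟩ | ⟨h, -⟩ | ⟨h, -⟩ <;> rw [h] <;>
    linarith

omit [GradedAlgebra 𝒜] in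
theorem eq_of_tau (hA : AC 𝒜 N 3 f β E F) {μ : Fin r → ℤ} (hμ : Wt 𝒜 μ)
    (h3 : tau β μ = 3 * N) : μ = -f 3 := by
  have hN := hA.N0
  rcases cls hA hμ with h | h | h | h | ⟨h, -⟩ | ⟨h, -⟩ | ⟨-, h⟩ | ⟨h, -⟩ | ⟨h, -⟩
  all_goals first | exact h | (rw [h3] at h; exfalso; omega)

/-- Some field of weight `-f 3` does not vanish at `z`. -/
def Good (𝒜 : ℕ × (Fin r → ℤ) → Submodule ℂ R) (f : Fin (3 + 1) → Fin r → ℤ) (z : FP 𝒜) : Prop :=
  ∃ D : VF R, Glob D ∧ HV 𝒜 (-f 3) D ∧ ¬ ValV z.q D 0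

/-- The negative weights at a lowest bad point. -/
theorem neg_dir (H : Hyp 𝒜) (hA : AC 𝒜 N 3 f β E F) {c : (Fin r → ℤ) →+ ℤ}
    (hc1 : ∀ μ, Wt 𝒜 μ → 0 < tau β μ → 0 < c μ) {z : FP 𝒜} (hz : z.Pi (-f 3))
    (ih : ∀ z' : FP 𝒜, z'.Pi (-f 3) → c z'.ν < c z.ν → Good 𝒜 f z') (hbad : ¬ Good 𝒜 f z)
    {a : Fin r → ℤ} (ha : z.Pi a) (hca : c a < 0) : ∃ i, i ≠ 3 ∧ a = -f i := by
  by_contra hcon
  have hN := hA.N0
  have haw : Wt 𝒜 a := ⟨z, ha⟩
  have hnp : ¬ 0 < tau β a := fun h => absurd (hc1 a haw h) (not_lt.2 hca.le)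
  have ht : tau β a = 0 ∨ tau β a = -2 * N ∨ tau β a = -4 * N := by
    rcases cls hA haw with h | h | h | h | ⟨h, -⟩ | ⟨-, h⟩ | ⟨h, -⟩ | ⟨-, h⟩ | ⟨h, -⟩
    · exact Or.inl h
    · exact absurd (by rw [h]; linarith) hnp
    · exact Or.inr (Or.inl h)
    · exact Or.inr (Or.inr h)
    · exact absurd (by rw [h]; linarith) hnp
    · exact absurd h hcon
    · exact absurd (by rw [h]; linarith) hnp
    · rw [h] at ha
      exact absurd hz (H170.not_pi_neg H ha)
    · exact absurd (by rw [h]; linarith) hnp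
  have h3 : tau β (-f 3) = 3 * N := by rw [map_neg, tau_3 hA]; ring
  have hk : ∀ k : ℕ, Wt 𝒜 (-f 3 - k • a) → k = 0 := by
    intro k hk
    have h1 : tau β (-f 3 - k • a) = 3 * N - k * tau β a := by
      rw [map_sub, map_nsmul, h3, nsmul_eq_mul]
    by_contra hk0
    have hk1 : (1 : ℤ) ≤ k := by exact_mod_cast Nat.one_le_iff_ne_zero.2 hk0
    rcases ht with h | h | h
    · rw [h, mul_zero, sub_zero] at h1
      have h2 := eq_of_tau hA hk h1
      have h4 : k • a = 0 := by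
        have := congrArg (fun x => -f 3 - x) h2
        simpa using this
      have h5 := congrArg c h4
      rw [map_nsmul, map_zero, nsmul_eq_mul] at h5
      rcases mul_eq_zero.1 h5 with h6 | h6 <;> omega
    · have h2 := tau_le hA hk
      rw [h1, h] at h2
      nlinarith
    · have h2 := tau_le hA hk
      rw [h1, h] at h2
      nlinarith
  have hl : ∀ k : ℤ, -f 3 ≠ k • a := by
    intro k hk
    have h1 := congrArg (tau β) hk
    rw [h3, map_zsmul, smul_eq_mul] at h1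
    rcases ht with h | h | h
    · rw [h, mul_zero] at h1
      omega
    · rw [h] at h1
      have h2 : (3 + 2 * k) * N = 0 := by linear_combination h1
      rcases mul_eq_zero.1 h2 with h4 | h4 <;> omega
    · rw [h] at h1
      have h2 : (3 + 4 * k) * N = 0 := by linear_combination h1
      rcases mul_eq_zero.1 h2 with h4 | h4 <;> omega
  obtain ⟨z', n, φ, hφ⟩ := exists_curve H z ha
  obtain ⟨k, hk'⟩ := H79.pi_other H hφ hl hz
  have hk0 := hk k ⟨z', hk'⟩
  subst hk0
  rw [zero_smul, sub_zero] at hk'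
  have hlt : c z'.ν < c z.ν := by
    rw [hφ.nu, map_add, map_nsmul, nsmul_eq_mul]
    have h1 : (1 : ℤ) ≤ n := by exact_mod_cast hφ.n1
    nlinarith
  obtain ⟨D, hD, hDv, hD0⟩ := ih z' hk' hlt
  exact hbad ⟨D, hD, hDv, H490.curve_u' H hφ hD hDv hl hz (k0 := 0)
    (fun k h => hk k ⟨z', h⟩) (H79.ne_of_val' hφ hD hDv hD0)⟩

/-- The string lemma for the roots of the component. -/
theorem rt_ns (H : Hyp 𝒜) (hA : AC 𝒜 N 3 f β E F) {i j : Fin (3 + 1)} (hij : i ≠ j) {q : FP 𝒜}
    (hna : ¬ q.Pi (f j - f i)) {χ : Fin r → ℤ} (hχ : q.Pi χ) (hβ : β i j χ < 0) :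
    q.Pi (χ + (f i - f j)) :=
  H155.nef_string0 H hA.N0 (H155.toRoot0 (hA.root i j hij)) (hA.root i j hij).int q
    (by rwa [neg_sub]) hχ hβ

theorem up_root (H : Hyp 𝒜) (hA : AC 𝒜 N 3 f β E F) {i j : Fin (3 + 1)} (hij : i ≠ j)
    {q : FP 𝒜} (hna : ¬ q.Pi (f j - f i)) (hj : q.Pi (f j)) : q.Pi (f i) := by
  have h1 := rt_ns H hA hij hna hj (by
    rw [hA.be i j j hij, if_neg hij.symm, if_pos rfl]
    linarith [hA.N0])
  rwa [add_sub_cancel] at h1

theorem up_vec (H : Hyp 𝒜) (hA : AC 𝒜 N 3 f β E F) (hvec : ∃ i j, i ≠ j ∧ Wt 𝒜 (f i + f j))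
    {i j k l : Fin (3 + 1)} (h : H155.Four i j k l) {q : FP 𝒜} (hna : ¬ q.Pi (-(f i + f j)))
    (hi : q.Pi (-f i)) : q.Pi (f j) := by
  have h1 := H155.vec_ns H hA hvec h q hna hi (by
    rw [map_neg, map_neg, hA.be i k i h.ik, hA.be j l i h.jl, if_pos rfl, if_neg h.ik,
      if_neg h.ij, if_neg h.il]
    linarith [hA.N0])
  have h2 : -f i + (f i + f j) = f j := by abel
  rwa [h2] at h1

/-- The induction, from (BX) and (SRC). -/
theorem good_all (H : Hyp 𝒜) (hA : AC 𝒜 N 3 f β E F) (hvec : ∃ i j, i ≠ j ∧ Wt 𝒜 (f i + f j))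
    (hbx : ∀ z : FP 𝒜, (∀ i j : Fin (3 + 1), i < j → ¬ z.Pi (f j - f i)) →
      (∀ i j : Fin (3 + 1), i < j → j ≠ 3 → ¬ z.Pi (-(f i + f j))) → z.Pi (-f 3) →
      z.Pi (f 0) → False)
    (hsrc : ∀ c : (Fin r → ℤ) →+ ℤ, (∀ μ, Wt 𝒜 μ → c μ ≠ 0) →
      (∀ μ, Wt 𝒜 μ → 0 < c μ → 0 ≤ tau β μ) → ∀ p : FP 𝒜, Pos c p → p.Pi (-f 3) →
      (∀ i, i ≠ 3 → ¬ p.Pi (f i)) → Good 𝒜 f p) :
    ∀ z : FP 𝒜, z.Pi (-f 3) → Good 𝒜 f z := by
  obtain ⟨c, hc0, hc1, hc2, hc3⟩ := exists_c H hA
  have hN := hA.N0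
  obtain ⟨B, hB⟩ := (((finite_weights H.hX).image c).bddBelow)
  have hB' : ∀ z : FP 𝒜, B ≤ c z.ν := fun z => hB ⟨z.ν, H170.nu_mem H z, rfl⟩
  have key : ∀ n : ℕ, ∀ z : FP 𝒜, z.Pi (-f 3) → c z.ν < B + n → Good 𝒜 f z := by
    intro n
    induction n with
    | zero =>
      intro z _ h
      have h1 := hB' z
      rw [Nat.cast_zero, add_zero] at h
      exact absurd h (not_lt.2 h1)
    | succ n IH =>
      intro z hz hn
      by_contra hbad
      have ih : ∀ z' : FP 𝒜, z'.Pi (-f 3) → c z'.ν < c z.ν → Good 𝒜 f z' := by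
        intro z' h1 h2
        refine IH z' h1 ?_
        push_cast at hn
        linarith
      have neg := fun (a : Fin r → ℤ) (ha : z.Pi a) (hca : c a < 0) =>
        neg_dir H hA hc1 hz ih hbad ha hca
      -- no negative boundary weight
      have hv : ∀ i j : Fin (3 + 1), i < j → j ≠ 3 → ¬ z.Pi (-(f i + f j)) := by
        intro i j hij hj h
        have hi : i ≠ 3 := by
          rintro rfl
          exact absurd (Fin.le_last j) (not_le.2 hij)
        have h1 : tau β (-(f i + f j)) = -2 * N := by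
          rw [map_neg, map_add, tau_i hA hi, tau_i hA hj]
          ring
        obtain ⟨k, hk, h2⟩ := neg _ h (hc2 _ ⟨z, h⟩ (by rw [h1]; linarith))
        rw [h2, map_neg, tau_i hA hk] at h1
        omega
      have hr : ∀ i j : Fin (3 + 1), i < j → ¬ z.Pi (f j - f i) := by
        intro i j hij h
        have hi : i ≠ 3 := by
          rintro rfl
          exact absurd (Fin.le_last j) (not_le.2 hij)
        by_cases hj : j = 3
        · subst hj
          have h1 : tau β (f 3 - f i) = -4 * N := by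
            rw [map_sub, tau_3 hA, tau_i hA hi]
            ring
          obtain ⟨k, hk, h2⟩ := neg _ h (hc2 _ ⟨z, h⟩ (by rw [h1]; linarith))
          rw [h2, map_neg, tau_i hA hk] at h1
          omega
        · have h1 : tau β (f j - f i) = 0 := by
            rw [map_sub, tau_i hA hj, tau_i hA hi, sub_self]
          have h4 : c (f i - f j) > 0 := by
            refine hc3 _ (by have h5 := wt_neg H ⟨z, h⟩; rwa [neg_sub] at h5) ?_ ?_
            · rw [map_sub, tau_i hA hj, tau_i hA hi, sub_self]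
            · rw [map_sub, hA.be 0 2 i (by decide), hA.be 0 2 j (by decide)]
              fin_cases i <;> fin_cases j <;>
                first
                | exact absurd hij (by decide)
                | exact absurd (by decide) hi
                | exact absurd (by decide) hj
                | (simp [Fin.ext_iff]; try linarith)
          have h5 : c (f j - f i) < 0 := by
            have h6 : f j - f i = -(f i - f j) := by abel
            rw [h6, map_neg]
            linarith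
          obtain ⟨k, hk, h2⟩ := neg _ h h5
          rw [h2, map_neg, tau_i hA hk] at h1
          omega
      have h0 : ¬ z.Pi (f 0) := fun h => hbx z hr hv hz h
      have h1 : ¬ z.Pi (f 1) := fun h =>
        h0 (up_root H hA (i := 0) (j := 1) (by decide) (hr 0 1 (by decide)) h)
      have h2 : ¬ z.Pi (f 2) := fun h =>
        h0 (up_root H hA (i := 0) (j := 2) (by decide) (hr 0 2 (by decide)) h)
      have hno : ∀ i, i ≠ 3 → ¬ z.Pi (f i) := by
        intro i hi
        fin_cases i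
        · exact h0
        · exact h1
        · exact h2
        · exact absurd rfl hi
      have hnn : ∀ i, i ≠ 3 → ¬ z.Pi (-f i) := by
        intro i hi h
        fin_cases i
        · exact h1 (up_vec H hA hvec (i := 0) (j := 1) (k := 2) (l := 3)
            ⟨by decide, by decide, by decide, by decide, by decide, by decide⟩
            (hv 0 1 (by decide) (by decide)) h)
        · exact h0 (up_vec H hA hvec (i := 1) (j := 0) (k := 2) (l := 3)
            ⟨by decide, by decide, by decide, by decide, by decide, by decide⟩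
            (by rw [add_comm]; exact hv 0 1 (by decide) (by decide)) h)
        · exact h0 (up_vec H hA hvec (i := 2) (j := 0) (k := 1) (l := 3)
            ⟨by decide, by decide, by decide, by decide, by decide, by decide⟩
            (by rw [add_comm]; exact hv 0 2 (by decide) (by decide)) h)
        · exact absurd rfl hi
      refine hbad (hsrc c hc0 (fun μ hμ h => ?_) z (fun χ hχ => ?_) hz hno)
      · by_contra h3
        exact absurd (hc2 μ hμ (not_le.1 h3)) (not_lt.2 h.le)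
      · by_contra h3
        obtain ⟨i, hi, h4⟩ := neg χ hχ (not_le.1 h3)
        rw [h4] at hχ
        exact hnn i hi hχ
  intro z hz
  refine key (c z.ν - B + 1).toNat z hz ?_
  have h1 := hB' z
  have h2 := Int.toNat_of_nonneg (a := c z.ν - B + 1) (by omega)
  omega

end Vale.Agent.P280.H539
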